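import Vale.Agent.P221.Loc.Final
import Vale.Agent.P221.St.IntA
import Vale.Agent.P221.H521.A3
import Vale.Agent.P221.H924.Ex

/-!
# P221 (helper509): the final theorem of the integral version, from the theorem on extensions

* `good_of_isForm`, `good_of_thick` : forms and the objects built from them are good;
* `HExt` : the theorem on `p`-complete bounded below spectra `Y` such that `BP_* Y` is filtered;
* `result_of_ext` : the final theorem, from `HExt`.
-/

open CategoryTheory MonoidalCategory MonObj Limits Pretriangulated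

set_option linter.unusedSectionVars false

noncomputable section

namespace Vale.Agent.P221.Loc

open Vale.Agent.P251 Vale.Agent.P251.S Vale.Agent.P251.T Vale.Agent.P251.M Vale.Agent.P251.F
  Vale.Agent.P251.I EvenSpheres Vale.Agent.P257.H702 Vale.Agent.P257.H80 Vale.Agent.P251.Q
  Vale.Agent.P251.St Vale.Agent.P251.St.SHCat Vale.Agent.P257.St
  Vale.Agent.P221.H746 Vale.Agent.P093.N0

variable {T : SHCat} {S : Susp T} {p n : ℕ}

/-! ### Good objects -/

theorem good_of_isForm [hp : Fact p.Prime] {C : T.C} {i : 𝟙_ T.C ⟶ C} {δ : C ⟶ (𝟙_ T.C)⟦(1 : ℤ)⟧}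
    (hC : Triangle.mk ((p : ℤ) • 𝟙 (𝟙_ T.C)) i δ ∈ distTriang T.C) {B : T.C}
    (hB : St.IsForm S p n B) : Good p C B := by
  obtain ⟨D, hD, hA, ⟨U⟩⟩ := H924.exists_mu S.toSpaceFunctor (P251.M.lineIso S.toSpaceFunctor)
  obtain ⟨h1, h2, L, Q, ⟨Φ⟩⟩ := H924.exists_form' hD hA U hC hB
  refine ⟨h1, fun j => ?_, 0, h2⟩
  obtain ⟨w, hw | hw⟩ := Int.even_or_odd' j
  · subst hw
    have h3 : Finite ((stdEven T.C).S w ⟶ B ⊗ C) := by
      have h4 : Finite (H924.PH p n w) := H521.finite_hom hp.out.two_le n w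
      exact Finite.of_equiv _ (Φ.Θ w).symm.toEquiv
    refine Finite.of_injective (fun f : (𝟙_ T.C)⟦2 * w⟧ ⟶ B ⊗ C => (stdSph w).hom ≫ f) ?_
    intro a b hab
    exact (cancel_epi _).1 hab
  · subst hw
    have : Subsingleton ((𝟙_ T.C)⟦2 * w + 1⟧ ⟶ B ⊗ C) :=
      ⟨fun a b => (Φ.odd w a).trans (Φ.odd w b).symm⟩
    infer_instance

theorem good_of_thick {C B Y : T.C} (hB : Good p C B) (hY : St.Thick B Y) : Good p C Y := by
  induction hY with
  | base => exact hB
  | zero h => exact Good.of_isZero ((IsZero.iff_id_eq_zero _).2 h)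
  | susp k _ ih => exact ih.shift k
  | cof hd _ _ ih₁ ih₂ => exact Good.ext₃ hd ih₁ ih₂
  | retract i r hir _ ih => exact ih.of_retract i r hir

/-! ### The statement layers -/

theorem thickI_of_thick {B X : T.C} (hX : St.Thick B X) :
    StI.ThickOf (fun Y : T.C => Y = B) X := by
  induction hX with
  | base => exact StI.ThickOf.base rfl
  | zero h0 => exact StI.ThickOf.zero h0
  | susp k _ ih => exact StI.ThickOf.susp k ih
  | cof hd _ _ ih₁ ih₂ => exact StI.ThickOf.cof hd ih₁ ih₂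
  | retract i r hir _ ih => exact StI.ThickOf.retract i r hir ih

theorem isGenMooreI_of {R : RingSp T} {φ : GHom S p R} {j : ℕ} {V : T.C}
    (h : StI.IsGenMoore φ j V) : St.IsGenMoore φ j V := by
  induction h with
  | base h1 h2 => exact St.IsGenMoore.base h1 h2
  | step _ h2 h3 h4 h5 ih => exact St.IsGenMoore.step ih h2 h3 h4 h5

theorem isFpTypeI_of {X : T.C} (h : StI.IsFpType S p n X) : St.IsFpType S p n X := by
  obtain ⟨h1, h2, P, o, φ, V, N, h3, h4, h5⟩ := h
  exact ⟨h1, h2, P, o, φ, V, h3, isGenMooreI_of h4, fun k => (h5 k).1, N, fun k hk => (h5 k).2 hk⟩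

theorem isStandardFormI_iff {B : T.C} :
    StI.IsStandardForm S p n B ↔ StL.IsStandardForm S p n B := by
  constructor
  · rintro ⟨P, o, φ, x, C, a, q, c, h1, h2, h3, h4⟩
    exact ⟨P, o, φ, x, C, a, q, c, h1, h2, ⟨h3.act, h3.map, h3.surj, h3.ker⟩, h4⟩
  · rintro ⟨P, o, φ, x, C, a, q, c, h1, h2, h3, h4⟩
    exact ⟨P, o, φ, x, C, a, q, c, h1, h2, ⟨h3.act, h3.map, h3.surj, h3.ker⟩, h4⟩

/-- the theorem on extensions -/
def HExt (S : Susp T) (p n : ℕ) : Prop :=
  ∀ (B Y : T.C), St.IsForm S p n B → St.PComplete p Y → St.BoundedBelow Y →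
    ∀ (R : RingSp T) (o : Oriented S R) (φ : GHom S p R)
      (G : ∀ k : ℤ, StI.Pi k (ten R.obj Y) → Prop), IsBrownPeterson p o φ →
      StI.IsExt S p n R.obj Y G → (∀ k y, G k y) → St.Thick B Y

/-- **the final theorem, from the theorem on extensions** -/
theorem result_of_ext (hp : p.Prime) (hE : HExt S p n) {B X M : T.C} {f : X ⟶ M}
    (hB : StI.IsStandardForm S p n B) (hX : StI.IsFpType S p n X) (hf : StI.EvIso f)
    (hM : StI.ThickOf (StI.IsGen S p n) M) : StI.ThickOf (fun Y : T.C => Y = B) X := by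
  have : Fact p.Prime := ⟨hp⟩
  obtain ⟨D, hD, hA, ⟨U⟩⟩ := H924.exists_mu S.toSpaceFunctor (P251.M.lineIso S.toSpaceFunctor)
  have hB' : St.IsForm S p n B :=
    H924.isForm_of_isStandardForm hD hA U (isStandardForm_iff.1 (isStandardFormI_iff.1 hB))
  obtain ⟨C, i, δ, hC⟩ := H746.exists_moore (𝒯 := T.C) (p : ℤ)
  have h0 : Conn (0 : ℤ) (𝟙_ T.C) := D.conn_unit
  have hX' := isFpTypeI_of hX
  have hT : ∀ X : T.C, St.IsBPFinite S p n X → St.Thick B X := fun X hX =>
    H509.thick_of_isBPFinite hB' hX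
  have hcov : ∀ (k : ℤ) {Y Z : T.C} (c : Y ⟶ Z), IsCov k c → Good p C Z → Good p C Y :=
    fun k _ _ c hc h => hc.good hC D.conn_unit h
  have hmod : ∀ (k : ℤ) {Y Z : T.C} (c : Y ⟶ Z), IsCov k c → ModStr D.R Z →
      Nonempty (ModStr D.R Y) := fun k _ _ c hc M => hc.modStr M
  have hsing : ∀ (k : ℤ) (E : T.C), BigCell T.C k E →
      (∀ j, k < j → ∀ x : (𝟙_ T.C)⟦j⟧ ⟶ E, x = 0) → Nonempty (ModStr D.R E) :=
    fun k E h1 h2 => modStr_of_single D h1 h2
  have hgood : ∀ X : T.C, St.IsFpType S p n X → Good p C X := fun X hX => good_of_fpType hp hC hX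
  have htf : ∀ {P : RingSp T} (φ : P257.St.GHom S p P) (m : ℕ) (W V : T.C), Good p C W →
      (∃ k : ℤ, ∀ j, k ≤ j → ∀ x : (𝟙_ T.C)⟦j⟧ ⟶ W, x = 0) → St.IsGenMoore φ m V →
        St.TotallyFinite (ten W V) := fun φ m W V h1 h2 h3 => totallyFinite_of_good hC h1 h2 h3
  have hCT := covThick (C := C) (B := B) hp hD U hT hcov hsing htf hX'
  have hM' : EvG (fun Z : T.C => Good p C Z ∧ St.Thick B Z) M := by
    clear hf f
    induction hM with
    | base h =>
      obtain ⟨Y, c, ⟨K, hK⟩, ⟨h1, h2⟩ | ⟨h1, h2, R, o, φ, G, h3, h4, h5⟩⟩ := h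
      · exact evG_of_module hp hD U hT hcov hmod hgood htf h1 (c := c) (K := K) hK
          (isFpTypeI_of h2)
      · have h6 : St.Thick B Y := hE B Y hB' h1 h2 R o φ G h3 h4 h5
        exact ⟨Y, c, K, ⟨good_of_thick (good_of_isForm hC hB') h6, h6⟩, hK⟩
    | zero h => exact EvG.of (hCT.zero ((IsZero.iff_id_eq_zero _).2 h))
    | susp k _ ih => exact ih.shift hCT k
    | cof hd _ _ ih₁ ih₂ => exact EvG.cof hCT h0 hd ih₁ ih₂
    | retract i r hir _ ih => exact EvG.retract hCT h0 i r hir ih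
  obtain ⟨k₀, hk₀⟩ := hM'.exists_cov hCT h0
  obtain ⟨K, hK⟩ := hf
  have hK' : BijGe K f := hK
  obtain ⟨X', d, hd⟩ := exists_cov (max K k₀) X
  have h2 := hk₀ _ (le_max_right K k₀) (hd.comp_bijGe (hK'.mono (le_max_left K k₀)))
  exact thickI_of_thick (thick_of_cov h0 hcov (thick_single hp hD U hT hsing htf hX') hd
    (hgood X hX') h2.2)

end Vale.Agent.P221.Loc
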