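import Vale.Agent.P221.Loc.Cov

/-!
# P221 (helper606): module structures on connective covers and on Eilenberg-MacLane objects
-/

open CategoryTheory MonoidalCategory MonObj Limits Pretriangulated

set_option linter.unusedSectionVars false

universe u

namespace Vale.Agent.P221.Loc

open Vale.Agent.P251.T Vale.Agent.P251.S Vale.Agent.P251.H Vale.Agent.P251.M
  Vale.Agent.P251.I Vale.Agent.P257.H762 Vale.Agent.P221.H136

variable {𝒯 : Type u} [Category.{0} 𝒯] [Preadditive 𝒯] [HasZeroObject 𝒯]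
    [HasShift 𝒯 ℤ] [∀ n : ℤ, (shiftFunctor 𝒯 n).Additive] [Pretriangulated 𝒯] [IsTriangulated 𝒯]
    [MonoidalCategory 𝒯] [SymmetricCategory 𝒯] [TensorTriangulated 𝒯] [MonoidalClosed 𝒯]
    [HasCoproducts.{0} 𝒯] [HasProducts.{0} 𝒯] [StableCat 𝒯]

/-- `MU` has cells in dimensions `≥ 0` -/
theorem bigCell_R (D : MUData 𝒯) : BigCell 𝒯 0 D.R := by
  obtain ⟨J, ρ, δ, hT⟩ := distinguished_cocone_triangle (η[D.R] : 𝟙_ 𝒯 ⟶ D.R)
  have hJ : BigCell 𝒯 0 J := (D.conn J ρ δ hT).mono (by norm_num)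
  have h1 : BigCell 𝒯 0 (𝟙_ 𝒯) :=
    BigCell.of_iso ((shiftFunctorZero 𝒯 ℤ).app (𝟙_ 𝒯)) (BigCell.sphere 0 le_rfl)
  exact BigCell.ext _ hT h1 hJ

/-- restriction along the unit of `MU` on objects with cells in dimensions `≥ l` -/
theorem bij_unit (D : MUData 𝒯) {k l : ℤ} (hkl : k ≤ l) {Z W : 𝒯} (hZ : BigCell 𝒯 l Z)
    (hW : ∀ j, k < j → ∀ x : (𝟙_ 𝒯)⟦j⟧ ⟶ W, x = 0) :
    Function.Bijective fun g : D.R ⊗ Z ⟶ W => (η[D.R] ▷ Z) ≫ g := by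
  obtain ⟨J, ρ, δ, hT⟩ := distinguished_cocone_triangle (η[D.R] : 𝟙_ 𝒯 ⟶ D.R)
  have hJ : BigCell 𝒯 (2 + l) (J ⊗ Z) := (D.conn J ρ δ hT).tensor hZ _ rfl
  have hJ' : BigCell 𝒯 (1 + l) ((J ⊗ Z)⟦(-1 : ℤ)⟧) := hJ.shift (-1) _ (by ring)
  have hT' := tensR_dist Z hT
  constructor
  · intro a a' haa
    change (η[D.R] ▷ Z) ≫ a = (η[D.R] ▷ Z) ≫ a' at haa
    have h1 : (η[D.R] ▷ Z) ≫ (a - a') = 0 := by rw [Preadditive.comp_sub, haa, sub_self]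
    obtain ⟨g, hg⟩ : ∃ g : J ⊗ Z ⟶ W, a - a' = (ρ ▷ Z) ≫ g := Triangle.yoneda_exact₂ _ hT' _ h1
    rw [hom_bigCell (by omega : k < 2 + l) hJ hW g, comp_zero] at hg
    exact sub_eq_zero.1 hg
  · intro y
    have h0 : ∀ t : (J ⊗ Z)⟦(-1 : ℤ)⟧ ⟶ W, t = 0 := hom_bigCell (by omega : k < 1 + l) hJ' hW
    obtain ⟨g, hg⟩ : ∃ g : D.R ⊗ Z ⟶ W, y = (η[D.R] ▷ Z) ≫ g :=
      Triangle.yoneda_exact₂ _ (inv_rot_of_distTriang _ hT') y (h0 _)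
    exact ⟨g, hg.symm⟩

/-- **(L2a)** the connective covers of a module over `MU` are modules -/
theorem IsCov.modStr {D : MUData 𝒯} {k : ℤ} {Y X : 𝒯} {c : Y ⟶ X} (hc : IsCov k c)
    (M : ModStr D.R X) : Nonempty (ModStr D.R Y) := by
  have h0 : Conn (0 : ℤ) (𝟙_ 𝒯) := D.conn_unit
  have hR := bigCell_R D
  have hRY : BigCell 𝒯 k (D.R ⊗ Y) := hR.tensor hc.cell _ (by ring)
  have hRRY : BigCell 𝒯 k ((D.R ⊗ D.R) ⊗ Y) := (hR.tensor hR 0 (by ring)).tensor hc.cell _ (by ring)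
  obtain ⟨a, ha⟩ := hc.exists_lift h0 hRY ((D.R ◁ c) ≫ M.act)
  refine ⟨⟨a, ?_, ?_⟩⟩
  · refine hc.ext h0 (BigCell.of_iso (λ_ Y).symm hc.cell) ?_
    rw [Category.assoc, ha, ← whisker_exchange_assoc, M.one_act, leftUnitor_naturality]
  · refine hc.ext h0 hRRY ?_
    rw [Category.assoc, ha, ← whisker_exchange_assoc, M.mul_act]
    simp only [Category.assoc]
    rw [ha, ← MonoidalCategory.whiskerLeft_comp_assoc, ha, MonoidalCategory.whiskerLeft_comp_assoc,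
      ← associator_naturality_right_assoc]

/-- **(L2b)** an object with homotopy in a single degree is a module over `MU` -/
theorem modStr_of_single (D : MUData 𝒯) {k : ℤ} {E : 𝒯} (hE : BigCell 𝒯 k E)
    (hE' : ∀ j, k < j → ∀ x : (𝟙_ 𝒯)⟦j⟧ ⟶ E, x = 0) : Nonempty (ModStr D.R E) := by
  obtain ⟨a, ha⟩ := (bij_unit D le_rfl hE hE').2 (λ_ E).hom
  change (η[D.R] ▷ E) ≫ a = (λ_ E).hom at ha
  have hRE : BigCell 𝒯 k (D.R ⊗ E) := (bigCell_R D).tensor hE _ (by ring)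
  refine ⟨⟨a, ha, ?_⟩⟩
  rw [← Iso.inv_comp_eq]
  apply (bij_unit D le_rfl hRE hE').1
  change (η[D.R] ▷ (D.R ⊗ E)) ≫ (α_ D.R D.R E).inv ≫ (μ[D.R] ▷ E) ≫ a =
    (η[D.R] ▷ (D.R ⊗ E)) ≫ (D.R ◁ a) ≫ a
  rw [← whisker_exchange_assoc, ha, leftUnitor_naturality,
    associator_inv_naturality_left_assoc, ← comp_whiskerRight_assoc, MonObj.one_mul]
  simp

end Vale.Agent.P221.Loc
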