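import Vale.Agent.P221.Loc.Good
import Vale.Agent.P221.H509.Fp

/-!
# P221 (helper509): bounded good objects, covers of good objects of `Thick B`
-/

open CategoryTheory MonoidalCategory Limits Pretriangulated

set_option linter.unusedSectionVars false

namespace Vale.Agent.P221.Loc

open Vale.Agent.P251.T Vale.Agent.P251.S Vale.Agent.P251.M Vale.Agent.P257.H762
open Vale.Agent.P251.St Vale.Agent.P251.St.SHCat Vale.Agent.P257.St Vale.Agent.P221.St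

variable {T : SHCat} {p : ℕ} {C B : T.C}

theorem thick_zero {X : T.C} (h : IsZero X) : Thick B X :=
  Thick.zero ((IsZero.iff_id_eq_zero X).1 h)

theorem thick_ext₃ {X Y Z : T.C} {f : X ⟶ Y} {g : Y ⟶ Z} {h : Z ⟶ X⟦(1 : ℤ)⟧}
    (hT : Triangle.mk f g h ∈ distTriang T.C) (hX : Thick B X) (hY : Thick B Y) : Thick B Z :=
  Thick.cof (f := f) (g := g) (h := h) hT hX hY

theorem thick_ext₂ {X Y Z : T.C} {f : X ⟶ Y} {g : Y ⟶ Z} {h : Z ⟶ X⟦(1 : ℤ)⟧}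
    (hT : Triangle.mk f g h ∈ distTriang T.C) (hX : Thick B X) (hZ : Thick B Z) : Thick B Y :=
  thick_ext₃ (inv_rot_of_distTriang _ hT) (Thick.susp (-1) hZ) hX

theorem thick_ext₁ {X Y Z : T.C} {f : X ⟶ Y} {g : Y ⟶ Z} {h : Z ⟶ X⟦(1 : ℤ)⟧}
    (hT : Triangle.mk f g h ∈ distTriang T.C) (hY : Thick B Y) (hZ : Thick B Z) : Thick B X :=
  thick_ext₂ (inv_rot_of_distTriang _ hT) (Thick.susp (-1) hZ) hY

/-- **bounded good objects** -/
theorem thick_bounded (h0 : Conn (0 : ℤ) (𝟙_ T.C))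
    (hcov : ∀ (k : ℤ) {Y Z : T.C} (c : Y ⟶ Z), IsCov k c → Good p C Z → Good p C Y)
    (hs : ∀ (k : ℤ) (E : T.C), Good p C E → BigCell T.C k E →
      (∀ j, k < j → ∀ x : (𝟙_ T.C)⟦j⟧ ⟶ E, x = 0) → Thick B E) (m : ℕ) :
    ∀ (N : ℤ) (W : T.C), Good p C W → Conn N W →
      (∀ j, N + m ≤ j → ∀ x : (𝟙_ T.C)⟦j⟧ ⟶ W, x = 0) → Thick B W := by
  induction m with
  | zero =>
    intro N W _ hW hz
    refine thick_zero (StableCat.generator W fun j x => ?_)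
    rcases lt_or_ge j N with h | h
    · exact hW j h x
    · exact hz j (by simpa using h) x
  | succ m ih =>
    intro N W hG hW hz
    obtain ⟨Y, c, hc⟩ := exists_cov (N + 1) W
    have hGY : Good p C Y := hcov _ c hc hG
    have hcY : Conn (N + 1) Y := BigCell.conn' h0 hc.cell
    have h1 : Thick B Y := by
      refine ih (N + 1) Y hGY hcY fun j hj x => ?_
      refine (hc.bij j (by omega)).1 ?_
      change x ≫ c = 0 ≫ c
      rw [zero_comp]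
      exact hz j (by push_cast; omega) _
    obtain ⟨E, g, h, hT⟩ := distinguished_cocone_triangle c
    have h2 : Thick B E := by
      refine hs N E (Good.ext₃ hT hGY hG) ?_ fun j hj x => hc.cof_zero h0 hT j (by omega) x
      exact bigCell_of_conn h0 (Conn.ext₃ _ hT hW (hcY.mono (by omega)))
    exact thick_ext₂ hT h1 h2

theorem thick_of_bdd (h0 : Conn (0 : ℤ) (𝟙_ T.C))
    (hcov : ∀ (k : ℤ) {Y Z : T.C} (c : Y ⟶ Z), IsCov k c → Good p C Z → Good p C Y)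
    (hs : ∀ (k : ℤ) (E : T.C), Good p C E → BigCell T.C k E →
      (∀ j, k < j → ∀ x : (𝟙_ T.C)⟦j⟧ ⟶ E, x = 0) → Thick B E) {k : ℤ} {W : T.C}
    (hG : Good p C W) (hz : ∀ j, k ≤ j → ∀ x : (𝟙_ T.C)⟦j⟧ ⟶ W, x = 0) : Thick B W := by
  obtain ⟨N, hN⟩ := hG.bb
  refine thick_bounded h0 hcov hs (k - N).toNat N W hG hN fun j hj x => hz j ?_ x
  have := Int.self_le_toNat (k - N)
  omega

/-- **covers of good objects of `Thick B`** -/
theorem thick_cov (h0 : Conn (0 : ℤ) (𝟙_ T.C))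
    (hcov : ∀ (k : ℤ) {Y Z : T.C} (c : Y ⟶ Z), IsCov k c → Good p C Z → Good p C Y)
    (hs : ∀ (k : ℤ) (E : T.C), Good p C E → BigCell T.C k E →
      (∀ j, k < j → ∀ x : (𝟙_ T.C)⟦j⟧ ⟶ E, x = 0) → Thick B E) {k : ℤ} {Y Z : T.C} {c : Y ⟶ Z}
    (hc : IsCov k c) (hG : Good p C Z) (hZ : Thick B Z) : Thick B Y := by
  obtain ⟨E, g, h, hT⟩ := distinguished_cocone_triangle c
  exact thick_ext₁ hT hZ (thick_of_bdd h0 hcov hs (Good.ext₃ hT (hcov k c hc hG) hG)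
    fun j hj x => hc.cof_zero h0 hT j hj x)

/-- objects whose covers are in `Thick B` -/
theorem thick_of_cov (h0 : Conn (0 : ℤ) (𝟙_ T.C))
    (hcov : ∀ (k : ℤ) {Y Z : T.C} (c : Y ⟶ Z), IsCov k c → Good p C Z → Good p C Y)
    (hs : ∀ (k : ℤ) (E : T.C), Good p C E → BigCell T.C k E →
      (∀ j, k < j → ∀ x : (𝟙_ T.C)⟦j⟧ ⟶ E, x = 0) → Thick B E) {k : ℤ} {Y Z : T.C} {c : Y ⟶ Z}
    (hc : IsCov k c) (hG : Good p C Z) (hY : Thick B Y) : Thick B Z := by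
  obtain ⟨E, g, h, hT⟩ := distinguished_cocone_triangle c
  exact thick_ext₂ hT hY (thick_of_bdd h0 hcov hs (Good.ext₃ hT (hcov k c hc hG) hG)
    fun j hj x => hc.cof_zero h0 hT j hj x)

/-- total finiteness and triangles -/
theorem tf_ext₂ {X Y Z : T.C} {f : X ⟶ Y} {g : Y ⟶ Z} {h : Z ⟶ X⟦(1 : ℤ)⟧}
    (hT : Triangle.mk f g h ∈ distTriang T.C) (hX : TotallyFinite X) (hZ : TotallyFinite Z) :
    TotallyFinite Y := by
  obtain ⟨h1, N₁, hN₁⟩ := hX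
  obtain ⟨h2, N₂, hN₂⟩ := hZ
  refine ⟨fun k => finite_mid hT (h1 k) (h2 k), max N₁ N₂, fun k hk u => ?_⟩
  obtain ⟨v, hv⟩ := Triangle.coyoneda_exact₂ _ hT u (hN₂ k (by omega) _)
  rw [hv, hN₁ k (by omega) v]
  exact zero_comp

theorem tf_shift {X : T.C} (hX : TotallyFinite X) (m : ℤ) : TotallyFinite (X⟦m⟧) :=
  H509.tf_of_thick' hX (Thick.susp m Thick.base)

theorem tf_ext₁ {X Y Z : T.C} {f : X ⟶ Y} {g : Y ⟶ Z} {h : Z ⟶ X⟦(1 : ℤ)⟧}
    (hT : Triangle.mk f g h ∈ distTriang T.C) (hY : TotallyFinite Y) (hZ : TotallyFinite Z) :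
    TotallyFinite X :=
  tf_ext₂ (inv_rot_of_distTriang _ hT) (tf_shift hZ (-1)) hY

end Vale.Agent.P221.Loc
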