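import Vale.Agent.P221.Loc.Cov

/-!
# P221 (helper520): objects which agree in high degrees with an object of a class `G`
-/

open CategoryTheory MonoidalCategory Limits Pretriangulated

set_option linter.unusedSectionVars false

universe u

namespace Vale.Agent.P221.Loc

open Vale.Agent.P251.T Vale.Agent.P251.S Vale.Agent.P251.H Vale.Agent.P251.M
  Vale.Agent.P251.I Vale.Agent.P257.H762 Vale.Agent.P221.H136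

variable {𝒯 : Type u} [Category.{0} 𝒯] [Preadditive 𝒯] [HasZeroObject 𝒯]
    [HasShift 𝒯 ℤ] [∀ n : ℤ, (shiftFunctor 𝒯 n).Additive] [Pretriangulated 𝒯] [IsTriangulated 𝒯]
    [MonoidalCategory 𝒯] [SymmetricCategory 𝒯] [TensorTriangulated 𝒯] [MonoidalClosed 𝒯]
    [HasCoproducts.{0} 𝒯] [HasProducts.{0} 𝒯] [StableCat 𝒯]

/-- thick classes which are closed under connective covers -/
structure CovThick (G : 𝒯 → Prop) : Prop where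
  zero : ∀ {Z : 𝒯}, IsZero Z → G Z
  shift : ∀ {Z : 𝒯} (k : ℤ), G Z → G (Z⟦k⟧)
  cof : ∀ {X Y Z : 𝒯} {f : X ⟶ Y} {g : Y ⟶ Z} {h : Z ⟶ X⟦(1 : ℤ)⟧},
    Triangle.mk f g h ∈ distTriang 𝒯 → G X → G Y → G Z
  retract : ∀ {X Y : 𝒯} (i : X ⟶ Y) (r : Y ⟶ X), i ≫ r = 𝟙 X → G Y → G X
  cov : ∀ {k : ℤ} {Y X : 𝒯} {c : Y ⟶ X}, IsCov k c → G X → G Y

/-- `M` agrees in high degrees with an object of `G` -/
def EvG (G : 𝒯 → Prop) (M : 𝒯) : Prop := ∃ (Z : 𝒯) (f : Z ⟶ M) (k : ℤ), G Z ∧ BijGe k f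

variable {G : 𝒯 → Prop}

theorem CovThick.iso (hG : CovThick G) {X Y : 𝒯} (e : X ≅ Y) (hX : G X) : G Y :=
  hG.retract e.inv e.hom e.inv_hom_id hX

theorem EvG.of {Z : 𝒯} (hZ : G Z) : EvG G Z := ⟨Z, 𝟙 Z, 0, hZ, BijGe.of_isIso 0 (𝟙 Z)⟩

theorem EvG.of_bijGe {k : ℤ} {M N : 𝒯} {f : M ⟶ N} (hf : BijGe k f) (hM : EvG G M) : EvG G N := by
  obtain ⟨Z, g, l, hZ, hg⟩ := hM
  exact ⟨Z, g ≫ f, max k l, hZ, (hg.mono (le_max_right k l)).comp (hf.mono (le_max_left k l))⟩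

/-- all covers in high degrees are in `G` -/
theorem EvG.exists_cov (hG : CovThick G) (h0 : Conn (0 : ℤ) (𝟙_ 𝒯)) {M : 𝒯} (hM : EvG G M) :
    ∃ k₀ : ℤ, ∀ k, k₀ ≤ k → ∀ {Y : 𝒯} {c : Y ⟶ M}, IsCov k c → G Y := by
  obtain ⟨Z, g, l, hZ, hg⟩ := hM
  refine ⟨l, fun k hk Y c hc => ?_⟩
  obtain ⟨W, d, hd⟩ := Loc.exists_cov k Z
  obtain ⟨e, -⟩ := IsCov.exists_iso (hd.comp_bijGe (hg.mono hk)) hc h0
  exact hG.iso e (hG.cov hd hZ)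

theorem EvG.of_cov {k : ℤ} {Y M : 𝒯} {c : Y ⟶ M} (hc : IsCov k c) (hY : G Y) : EvG G M :=
  ⟨Y, c, k, hY, hc.bijGe⟩

theorem EvG.shift (hG : CovThick G) (m : ℤ) {M : 𝒯} (hM : EvG G M) : EvG G (M⟦m⟧) := by
  obtain ⟨Z, g, l, hZ, hg⟩ := hM
  exact ⟨Z⟦m⟧, g⟦m⟧', l + m, hG.shift m hZ, hg.shift m (l + m) rfl⟩

theorem EvG.retract (hG : CovThick G) (h0 : Conn (0 : ℤ) (𝟙_ 𝒯)) {M N : 𝒯} (i : M ⟶ N)
    (r : N ⟶ M) (h : i ≫ r = 𝟙 M) (hN : EvG G N) : EvG G M := by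
  obtain ⟨k, hk⟩ := hN.exists_cov hG h0
  obtain ⟨Y, c, hc⟩ := Loc.exists_cov k M
  obtain ⟨W, d, hd⟩ := Loc.exists_cov k N
  obtain ⟨i', hi'⟩ := hd.exists_lift h0 hc.cell (c ≫ i)
  obtain ⟨r', hr'⟩ := hc.exists_lift h0 hd.cell (d ≫ r)
  refine EvG.of_cov hc (hG.retract i' r' (hc.ext h0 hc.cell ?_) (hk k le_rfl hd))
  rw [Category.assoc, hr', reassoc_of% hi', h, Category.comp_id, Category.id_comp]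

theorem EvG.cof (hG : CovThick G) (h0 : Conn (0 : ℤ) (𝟙_ 𝒯)) {X₁ X₂ X₃ : 𝒯} {f : X₁ ⟶ X₂}
    {g : X₂ ⟶ X₃} {w : X₃ ⟶ X₁⟦(1 : ℤ)⟧} (hT : Triangle.mk f g w ∈ distTriang 𝒯)
    (h₁ : EvG G X₁) (h₂ : EvG G X₂) : EvG G X₃ := by
  obtain ⟨k₁, hk₁⟩ := h₁.exists_cov hG h0
  obtain ⟨k₂, hk₂⟩ := h₂.exists_cov hG h0
  obtain ⟨k, hl₁, hl₂⟩ : ∃ k : ℤ, k₁ ≤ k ∧ k₂ ≤ k := ⟨max k₁ k₂, le_max_left _ _, le_max_right _ _⟩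
  obtain ⟨Y₁, c₁, hc₁⟩ := Loc.exists_cov k X₁
  obtain ⟨Y₂, c₂, hc₂⟩ := Loc.exists_cov k X₂
  obtain ⟨f', hf'⟩ := hc₂.exists_lift h0 hc₁.cell (c₁ ≫ f)
  obtain ⟨Y₃, g', w', hT'⟩ := distinguished_cocone_triangle f'
  obtain ⟨c₃, e₂, e₃⟩ := complete_distinguished_triangle_morphism _ _ hT' hT c₁ c₂ hf'
  exact ⟨Y₃, c₃, k + 1, hG.cof hT' (hk₁ k hl₁ hc₁) (hk₂ k hl₂ hc₂),
    bijGe_cof hT' hT hc₁.bijGe hc₂.bijGe hf' e₂ e₃⟩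

end Vale.Agent.P221.Loc
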