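import Vale.Agent.P221.Loc.Cov
import Vale.Agent.P221.H395.Comp2
import Mathlib.GroupTheory.Index

/-!
# P221 (helper509): `p`-complete bounded below objects with finite homotopy mod `p`
-/

open CategoryTheory MonoidalCategory Limits Pretriangulated

set_option linter.unusedSectionVars false

universe u

namespace Vale.Agent.P221.Loc

open Vale.Agent.P251.T Vale.Agent.P251.S Vale.Agent.P251.H Vale.Agent.P251.M
  Vale.Agent.P251.I Vale.Agent.P257.H762 Vale.Agent.P221.H136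

variable {𝒯 : Type u} [Category.{0} 𝒯] [Preadditive 𝒯] [HasZeroObject 𝒯]
    [HasShift 𝒯 ℤ] [∀ n : ℤ, (shiftFunctor 𝒯 n).Additive] [Pretriangulated 𝒯] [IsTriangulated 𝒯]
    [MonoidalCategory 𝒯] [SymmetricCategory 𝒯] [TensorTriangulated 𝒯] [MonoidalClosed 𝒯]
    [HasCoproducts.{0} 𝒯] [HasProducts.{0} 𝒯] [StableCat 𝒯]

/-- all homotopy groups are finite -/
def FinDeg (Z : 𝒯) : Prop := ∀ j : ℤ, Finite ((𝟙_ 𝒯)⟦j⟧ ⟶ Z)

theorem nonempty_homShift (X : 𝒯) (k m : ℤ) :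
    Nonempty (((𝟙_ 𝒯)⟦k⟧ ⟶ X⟦m⟧) ≃+ ((𝟙_ 𝒯)⟦k - m⟧ ⟶ X)) := by
  let e : (𝟙_ 𝒯)⟦k⟧ ≅ ((𝟙_ 𝒯)⟦k - m⟧)⟦m⟧ :=
    (shiftFunctorAdd' 𝒯 (k - m) m k (by omega)).app (𝟙_ 𝒯)
  refine ⟨AddEquiv.symm
    { toFun := fun f => e.hom ≫ f⟦m⟧'
      invFun := fun g => (shiftFunctor 𝒯 m).preimage (e.inv ≫ g)
      left_inv := fun f => by simp
      right_inv := fun g => by simp
      map_add' := fun f g => by rw [Functor.map_add, Preadditive.comp_add] }⟩

/-- exactness and finiteness -/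
theorem finite_mid {A B D W : 𝒯} {f : A ⟶ B} {g : B ⟶ D} {h : D ⟶ A⟦(1 : ℤ)⟧}
    (hT : Triangle.mk f g h ∈ distTriang 𝒯) (hA : Finite (W ⟶ A)) (hD : Finite (W ⟶ D)) :
    Finite (W ⟶ B) := by
  let F : (W ⟶ B) →+ (W ⟶ D) :=
    { toFun := fun u => u ≫ g
      map_zero' := zero_comp
      map_add' := fun _ _ => Preadditive.add_comp .. }
  let G : (W ⟶ A) →+ (W ⟶ B) :=
    { toFun := fun u => u ≫ f
      map_zero' := zero_comp
      map_add' := fun _ _ => Preadditive.add_comp .. }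
  have hker : Finite F.ker := by
    have h3 : ∀ x : F.ker, ∃ y, G y = x := fun x => by
      obtain ⟨v, hv⟩ := Triangle.coyoneda_exact₂ _ hT x.1 x.2
      exact ⟨v, hv.symm⟩
    choose y hy using h3
    exact Finite.of_injective y fun a b hab => Subtype.ext ((hy a).symm.trans (by rw [hab, hy]))
  have hran : Finite F.range := inferInstance
  exact Finite.of_equiv _ (AddSubgroup.addGroupEquivQuotientProdAddSubgroup
    (s := F.ker)).symm

theorem FinDeg.shift {X : 𝒯} (hX : FinDeg X) (m : ℤ) : FinDeg (X⟦m⟧) := by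
  intro j
  obtain ⟨e⟩ := nonempty_homShift X j m
  have := hX (j - m)
  exact Finite.of_equiv _ e.symm.toEquiv

theorem FinDeg.ext₂ {A B D : 𝒯} {f : A ⟶ B} {g : B ⟶ D} {h : D ⟶ A⟦(1 : ℤ)⟧}
    (hT : Triangle.mk f g h ∈ distTriang 𝒯) (hA : FinDeg A) (hD : FinDeg D) : FinDeg B :=
  fun j => finite_mid hT (hA j) (hD j)

theorem FinDeg.ext₃ {A B D : 𝒯} {f : A ⟶ B} {g : B ⟶ D} {h : D ⟶ A⟦(1 : ℤ)⟧}
    (hT : Triangle.mk f g h ∈ distTriang 𝒯) (hA : FinDeg A) (hB : FinDeg B) : FinDeg D :=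
  fun j => finite_mid (rot_of_distTriang _ hT) (hB j) (hA.shift 1 j)

theorem FinDeg.of_retract {X Y : 𝒯} (h : FinDeg X) (i : Y ⟶ X) (r : X ⟶ Y)
    (hir : i ≫ r = 𝟙 Y) : FinDeg Y := by
  intro j
  have := h j
  refine Finite.of_injective (fun u : (𝟙_ 𝒯)⟦j⟧ ⟶ Y => u ≫ i) fun a b hab => ?_
  change a ≫ i = b ≫ i at hab
  have h1 : (a ≫ i) ≫ r = (b ≫ i) ≫ r := by rw [hab]
  rwa [Category.assoc, Category.assoc, hir, Category.comp_id, Category.comp_id] at h1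

theorem FinDeg.of_iso {X Y : 𝒯} (h : FinDeg X) (e : X ≅ Y) : FinDeg Y :=
  h.of_retract e.inv e.hom e.inv_hom_id

theorem FinDeg.of_isZero {X : 𝒯} (h : IsZero X) : FinDeg X := by
  intro j
  have : Subsingleton ((𝟙_ 𝒯)⟦j⟧ ⟶ X) := ⟨fun a b => h.eq_of_tgt a b⟩
  infer_instance

/-- `p`-complete, bounded below, with finite homotopy groups mod `p` -/
structure Good (p : ℕ) (C Z : 𝒯) : Prop where
  pc : H395.PComplete p Z
  fin : FinDeg (Z ⊗ C)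
  bb : ∃ N : ℤ, Conn N Z

variable {p : ℕ} {C : 𝒯}

theorem Good.of_retract {X Y : 𝒯} (h : Good p C X) (i : Y ⟶ X) (r : X ⟶ Y)
    (hir : i ≫ r = 𝟙 Y) : Good p C Y where
  pc := h.pc.of_retract i r hir
  fin := h.fin.of_retract (i ▷ C) (r ▷ C) (by rw [← comp_whiskerRight, hir, id_whiskerRight])
  bb := by
    obtain ⟨N, hN⟩ := h.bb
    exact ⟨N, hN.of_retract i r hir⟩

theorem Good.of_iso {X Y : 𝒯} (h : Good p C X) (e : X ≅ Y) : Good p C Y :=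
  h.of_retract e.inv e.hom e.inv_hom_id

theorem Good.of_isZero {X : 𝒯} (h : IsZero X) : Good p C X where
  pc := H395.PComplete.of_isZero h
  fin := FinDeg.of_isZero (by
    rw [IsZero.iff_id_eq_zero] at h ⊢
    rw [← id_whiskerRight, h, MonoidalPreadditive.zero_whiskerRight])
  bb := ⟨0, Conn.zero h⟩

theorem Good.shift {X : 𝒯} (h : Good p C X) (m : ℤ) : Good p C (X⟦m⟧) where
  pc := h.pc.shift m
  fin := (h.fin.shift m).of_iso (((tensorRight C).commShiftIso m).app X).symm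
  bb := by
    obtain ⟨N, hN⟩ := h.bb
    exact ⟨N + m, hN.shift m (N + m) rfl⟩

theorem Good.ext₂ {X Y Z : 𝒯} {f : X ⟶ Y} {g : Y ⟶ Z} {w : Z ⟶ X⟦(1 : ℤ)⟧}
    (hT : Triangle.mk f g w ∈ distTriang 𝒯) (hX : Good p C X) (hZ : Good p C Z) :
    Good p C Y where
  pc := H395.PComplete.ext₂ _ hT hX.pc hZ.pc
  fin := FinDeg.ext₂ ((tensorRight C).map_distinguished _ hT) hX.fin hZ.fin
  bb := by
    obtain ⟨N, hN⟩ := hX.bb
    obtain ⟨N', hN'⟩ := hZ.bb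
    exact ⟨min N N', Conn.ext _ hT (hN.mono (min_le_left _ _)) (hN'.mono (min_le_right _ _))⟩

theorem Good.ext₃ {X Y Z : 𝒯} {f : X ⟶ Y} {g : Y ⟶ Z} {w : Z ⟶ X⟦(1 : ℤ)⟧}
    (hT : Triangle.mk f g w ∈ distTriang 𝒯) (hX : Good p C X) (hY : Good p C Y) :
    Good p C Z :=
  Good.ext₂ (rot_of_distTriang _ hT) hY (hX.shift 1)

theorem Good.ext₁ {X Y Z : 𝒯} {f : X ⟶ Y} {g : Y ⟶ Z} {w : Z ⟶ X⟦(1 : ℤ)⟧}
    (hT : Triangle.mk f g w ∈ distTriang 𝒯) (hY : Good p C Y) (hZ : Good p C Z) :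
    Good p C X :=
  Good.ext₂ (inv_rot_of_distTriang _ hT) (hZ.shift (-1)) hY

end Vale.Agent.P221.Loc
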