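import Vale.Agent.P221.St.ThickOf
import Vale.Agent.P221.Loc.Cls
import Vale.Agent.P221.Loc.Good
import Vale.Agent.P221.H521.ThickTen

/-!
# P221 (helper520): thick subcategories and agreement in high degrees, statement layer
-/

open CategoryTheory MonoidalCategory Limits Pretriangulated

set_option linter.unusedSectionVars false

namespace Vale.Agent.P221.Loc

open Vale.Agent.P251.St Vale.Agent.P251.St.SHCat Vale.Agent.P221.St
open Vale.Agent.P251.T Vale.Agent.P251.S Vale.Agent.P251.H Vale.Agent.P251.M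
  Vale.Agent.P251.I

variable {T : SHCat}

/-- if the generators agree in high degrees with objects of `G`, then so do all objects of the
generated thick subcategory -/
theorem EvG.thickOf {G : T.C → Prop} (hG : CovThick G) (h0 : Conn (0 : ℤ) (𝟙_ T.C))
    {Q : T.C → Prop} (h : ∀ P, Q P → EvG G P) {M : T.C} (hM : ThickOf Q M) : EvG G M := by
  induction hM with
  | base hX => exact h _ hX
  | zero h1 => exact EvG.of (hG.zero ((IsZero.iff_id_eq_zero _).2 h1))
  | susp k _ ih => exact ih.shift hG k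
  | cof hd _ _ ih₁ ih₂ => exact EvG.cof hG h0 hd ih₁ ih₂
  | retract i r hir _ ih => exact ih.retract hG h0 i r hir

/-- the good objects of `Thick B` -/
theorem covThick_good {p : ℕ} {C B : T.C}
    (hcov : ∀ (k : ℤ) {Y Z : T.C} (c : Y ⟶ Z), IsCov k c → Good p C Z → Thick B Z →
      Good p C Y ∧ Thick B Y) : CovThick fun Z : T.C => Good p C Z ∧ Thick B Z where
  zero h := ⟨Good.of_isZero h, Thick.zero ((IsZero.iff_id_eq_zero _).1 h)⟩
  shift k h := ⟨h.1.shift k, Thick.susp k h.2⟩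
  cof hT h₁ h₂ := ⟨Good.ext₃ hT h₁.1 h₂.1, Thick.cof hT h₁.2 h₂.2⟩
  retract i r hir h := ⟨h.1.of_retract i r hir, Thick.retract i r hir h.2⟩
  cov hc h := hcov _ _ hc h.1 h.2

/-- `M` agrees in high degrees with a good object of `Thick B` -/
def EvT (p : ℕ) (C B M : T.C) : Prop :=
  ∃ (Z : T.C) (f : Z ⟶ M) (K : ℤ), Good p C Z ∧ Thick B Z ∧ BijGe K f

theorem evT_iff {p : ℕ} {C B M : T.C} :
    EvT p C B M ↔ EvG (fun Z : T.C => Good p C Z ∧ Thick B Z) M := by
  constructor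
  · rintro ⟨Z, f, K, h1, h2, h3⟩
    exact ⟨Z, f, K, ⟨h1, h2⟩, h3⟩
  · rintro ⟨Z, f, K, ⟨h1, h2⟩, h3⟩
    exact ⟨Z, f, K, h1, h2, h3⟩

section

variable {p : ℕ} {C B : T.C} (h0 : Conn (0 : ℤ) (𝟙_ T.C))
  (hcov : ∀ (k : ℤ) {Y Z : T.C} (c : Y ⟶ Z), IsCov k c → Good p C Z → Thick B Z →
      Good p C Y ∧ Thick B Y)
include h0 hcov

/-- **the class `EvT` is thick** -/
theorem evT_thickOf {Q : T.C → Prop} (h : ∀ P, Q P → EvT p C B P) {M : T.C}
    (hM : ThickOf Q M) : EvT p C B M :=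
  evT_iff.2 (EvG.thickOf (covThick_good hcov) h0 (fun P hP => evT_iff.1 (h P hP)) hM)

/-- covers in high degrees of objects of `EvT` are in `Thick B` -/
theorem EvT.exists_cov {M : T.C} (hM : EvT p C B M) :
    ∃ k₀ : ℤ, ∀ k, k₀ ≤ k → ∀ {Y : T.C} {c : Y ⟶ M}, IsCov k c → Good p C Y ∧ Thick B Y :=
  EvG.exists_cov (covThick_good hcov) h0 (evT_iff.1 hM)

/-- **the last step**: `X` good, `f : X ⟶ M` bijective in high degrees, `M` in the class, bounded
good objects in `Thick B` -/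
theorem thick_of_evT (hC : ∀ (k : ℤ) {Y Z : T.C} (c : Y ⟶ Z), IsCov k c → Good p C Z → Good p C Y)
    (hb : ∀ Z : T.C, Good p C Z → (∃ k : ℤ, ∀ j, k ≤ j → ∀ x : (𝟙_ T.C)⟦j⟧ ⟶ Z, x = 0) → Thick B Z)
    {X M : T.C} (hX : Good p C X) {f : X ⟶ M} {K : ℤ} (hf : BijGe K f) (hM : EvT p C B M) :
    Thick B X := by
  obtain ⟨k₀, hk⟩ := hM.exists_cov h0 hcov
  obtain ⟨Y, c, hc⟩ := exists_cov (max k₀ K) X
  have hY := (hk (max k₀ K) (le_max_left _ _) (hc.comp_bijGe (hf.mono (le_max_right _ _)))).2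
  obtain ⟨Q, g, w, hT⟩ := distinguished_cocone_triangle c
  have hQ : Thick B Q := hb Q (Good.ext₃ hT (hC _ c hc hX) hX) ⟨_, hc.cof_zero h0 hT⟩
  exact Thick.cof (f := (Triangle.mk c g w).invRotate.mor₁) (g := (Triangle.mk c g w).invRotate.mor₂)
    (h := (Triangle.mk c g w).invRotate.mor₃) (inv_rot_of_distTriang _ hT) (Thick.susp (-1) hQ) hY

end

end Vale.Agent.P221.Loc
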