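import Vale.Agent.P221.St.Loc
import Vale.Agent.P221.St.ThickOf
import Vale.Agent.P251.T.Axioms

/-!
# P221 (helper509): the compact statement layer `StL` and the statement layer `St`
-/

open CategoryTheory MonoidalCategory OnePoint

set_option linter.unusedSectionVars false

namespace Vale.Agent.P221.Loc

open Vale.Agent.P251.St Vale.Agent.P251.St.SHCat Vale.Agent.P257.St

variable {T : SHCat} {S : Susp T} {p n : ℕ}

theorem thickOf_mono {Q Q' : T.C → Prop} (h : ∀ X, Q X → Q' X) {X : T.C}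
    (hX : StL.ThickOf Q X) : St.ThickOf Q' X := by
  induction hX with
  | base hY => exact St.ThickOf.base (h _ hY)
  | zero h0 => exact St.ThickOf.zero h0
  | susp k _ ih => exact St.ThickOf.susp k ih
  | cof hd _ _ ih₁ ih₂ => exact St.ThickOf.cof hd ih₁ ih₂
  | retract i r hir _ ih => exact St.ThickOf.retract i r hir ih

theorem thickOf_mono' {Q Q' : T.C → Prop} (h : ∀ X, Q X → Q' X) {X : T.C}
    (hX : St.ThickOf Q X) : StL.ThickOf Q' X := by
  induction hX with
  | base hY => exact StL.ThickOf.base (h _ hY)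
  | zero h0 => exact StL.ThickOf.zero h0
  | susp k _ ih => exact StL.ThickOf.susp k ih
  | cof hd _ _ ih₁ ih₂ => exact StL.ThickOf.cof hd ih₁ ih₂
  | retract i r hir _ ih => exact StL.ThickOf.retract i r hir ih

theorem thickL_of_thick {B X : T.C} (hX : St.Thick B X) : StL.Thick B X := by
  induction hX with
  | base => exact StL.ThickOf.base rfl
  | zero h0 => exact StL.ThickOf.zero h0
  | susp k _ ih => exact StL.ThickOf.susp k ih
  | cof hd _ _ ih₁ ih₂ => exact StL.ThickOf.cof hd ih₁ ih₂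
  | retract i r hir _ ih => exact StL.ThickOf.retract i r hir ih

theorem thick_of_thickL {B X : T.C} (hX : StL.Thick B X) : St.Thick B X := by
  induction hX with
  | base h => subst h; exact St.Thick.base
  | zero h0 => exact St.Thick.zero h0
  | susp k _ ih => exact St.Thick.susp k ih
  | cof hd _ _ ih₁ ih₂ => exact St.Thick.cof hd ih₁ ih₂
  | retract i r hir _ ih => exact St.Thick.retract i r hir ih

theorem thickL_iff {B X : T.C} : StL.Thick B X ↔ St.Thick B X :=
  ⟨thick_of_thickL, thickL_of_thick⟩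

theorem pComplete_iff {X : T.C} : StL.PComplete p X ↔ St.PComplete p X := Iff.rfl

theorem boundedBelow_iff {X : T.C} : StL.BoundedBelow X ↔ St.BoundedBelow X := Iff.rfl

theorem isPCompletion_iff {X Y : T.C} {c : Hom X Y} :
    StL.IsPCompletion p c ↔ St.IsPCompletion p c := Iff.rfl

theorem isOrModule_iff {X : T.C} : StL.IsOrModule S X ↔ St.IsOrModule S X := Iff.rfl

section

variable {R : RingSp T}

theorem unit_key {A Y Z : T.C} (b : A ⟶ Y) (m : Y ⟶ Z) :
    (b ≫ m) ≫ (ρ_ Z).inv = (b ≫ (ρ_ Y).inv) ≫ (m ▷ 𝟙_ T.C) := by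
  rw [Category.assoc, Category.assoc, rightUnitor_inv_naturality]

theorem unit_key' {A Y : T.C} (b : A ⟶ Y ⊗ 𝟙_ T.C) : (b ≫ (ρ_ Y).hom) ≫ (ρ_ Y).inv = b := by
  rw [Category.assoc, Iso.hom_inv_id, Category.comp_id]

theorem inGen_iff {x : ∀ j : ℕ, Hom (S.obj (Cn (p ^ j - 1))) R.obj} {k : ℤ}
    (u : Hom (sphere T k) R.obj) :
    St.InGen n x T.one (comp u (rightInv R.obj)) ↔
      ∃ (N : ℕ) (b : ∀ j : ℕ, Hom (sphere T k) (ten R.obj (S.obj (Cn (p ^ j - 1))))),
        u = ∑ j ∈ Finset.Ioc n N, comp (b j) (StL.mulBy (x j)) := by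
  constructor
  · rintro ⟨N, b, h⟩
    refine ⟨N, fun j => b j ≫ (ρ_ _).hom, ?_⟩
    rw [← cancel_mono (ρ_ R.obj).inv]
    refine Eq.trans h ?_
    rw [Preadditive.sum_comp]
    refine Finset.sum_congr rfl fun j _ => ?_
    refine Eq.trans ?_ (unit_key (b j ≫ (ρ_ _).hom) (StL.mulBy (x j))).symm
    exact congrArg (fun t => t ≫ (StL.mulBy (x j) ▷ 𝟙_ T.C)) (unit_key' (b j)).symm
  · rintro ⟨N, b, h⟩
    refine ⟨N, fun j => b j ≫ (ρ_ _).inv, ?_⟩
    change u ≫ (ρ_ R.obj).inv = _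
    rw [h, Preadditive.sum_comp]
    exact Finset.sum_congr rfl fun j _ => unit_key (b j) (StL.mulBy (x j))

theorem isQuotient_of {x : ∀ j : ℕ, Hom (S.obj (Cn (p ^ j - 1))) R.obj} {C : T.C}
    {a : Hom (ten R.obj C) C} {q : Hom R.obj C} (h : StL.IsQuotient n x a q) :
    St.IsQuotient n x a q :=
  ⟨h.act, h.map, h.surj, fun k u => (h.ker k u).trans (inGen_iff u).symm⟩

theorem isQuotient_of' {x : ∀ j : ℕ, Hom (S.obj (Cn (p ^ j - 1))) R.obj} {C : T.C}
    {a : Hom (ten R.obj C) C} {q : Hom R.obj C} (h : St.IsQuotient n x a q) :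
    StL.IsQuotient n x a q :=
  ⟨h.act, h.map, h.surj, fun k u => (h.ker k u).trans (inGen_iff u)⟩

theorem isGenMoore_of {φ : GHom S p R} {j : ℕ} {V : T.C} (h : StL.IsGenMoore φ j V) :
    St.IsGenMoore φ j V := by
  induction h with
  | base h1 h2 => exact St.IsGenMoore.base h1 h2
  | step _ h2 h3 h4 h5 ih => exact St.IsGenMoore.step ih h2 h3 h4 h5

end

theorem isStandardForm_iff {B : T.C} :
    StL.IsStandardForm S p n B ↔ St.IsStandardForm S p n B := by
  constructor
  · rintro ⟨P, o, φ, x, C, a, q, c, h1, h2, h3, h4⟩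
    exact ⟨P, o, φ, x, C, a, q, c, h1, h2, isQuotient_of h3, h4⟩
  · rintro ⟨P, o, φ, x, C, a, q, c, h1, h2, h3, h4⟩
    exact ⟨P, o, φ, x, C, a, q, c, h1, h2, isQuotient_of' h3, h4⟩

theorem isFpType_of {X : T.C} (h : StL.IsFpType S p n X) : St.IsFpType S p n X := by
  obtain ⟨h1, h2, P, o, φ, V, h3, h4, h5⟩ := h
  exact ⟨h1, h2, P, o, φ, V, h3, isGenMoore_of h4, h5⟩

end Vale.Agent.P221.Loc
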