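import Vale.Agent.P257.H762.MCell
import Vale.Agent.P221.H136.TopC

/-!
# P221 (helper509): connective covers
-/

open CategoryTheory MonoidalCategory Limits Pretriangulated

set_option linter.unusedSectionVars false

universe u

namespace Vale.Agent.P221.Loc

open Vale.Agent.P251.T Vale.Agent.P251.S Vale.Agent.P251.H Vale.Agent.P251.M
  Vale.Agent.P251.I Vale.Agent.P257.H762 Vale.Agent.P221.H136

variable {𝒯 : Type u} [Category.{0} 𝒯] [Preadditive 𝒯] [HasZeroObject 𝒯]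
    [HasShift 𝒯 ℤ] [∀ n : ℤ, (shiftFunctor 𝒯 n).Additive] [Pretriangulated 𝒯] [IsTriangulated 𝒯]
    [MonoidalCategory 𝒯] [SymmetricCategory 𝒯] [TensorTriangulated 𝒯] [MonoidalClosed 𝒯]
    [HasCoproducts.{0} 𝒯] [HasProducts.{0} 𝒯] [StableCat 𝒯]

/-- `c : Y ⟶ X` is the `k`-connective cover -/
structure IsCov (k : ℤ) {Y X : 𝒯} (c : Y ⟶ X) : Prop where
  cell : BigCell 𝒯 k Y
  bij : ∀ j, k ≤ j → Function.Bijective fun y : (𝟙_ 𝒯)⟦j⟧ ⟶ Y => y ≫ c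

/-- connective covers exist -/
theorem exists_cov (n : ℤ) (X : 𝒯) : ∃ (Y : 𝒯) (c : Y ⟶ X), IsCov n c := by
  obtain ⟨A₀, g₀, hA₀, hs₀⟩ := exists_onto n X
  choose A' f g' hfg hA' hk using
    fun (s : {s : Σ A : 𝒯, (A ⟶ X) // BigCell 𝒯 n s.1}) => exists_kerKill n s.1.2 s.2
  let E : ℕ → {s : Σ A : 𝒯, (A ⟶ X) // BigCell 𝒯 n s.1} := fun m =>
    Nat.rec ⟨⟨A₀, g₀⟩, hA₀⟩ (fun _ s => ⟨⟨A' s, g' s⟩, hA' s⟩) m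
  let F : ∀ m, (E m).1.1 ⟶ (E (m + 1)).1.1 := fun m => f (E m)
  let U : Tel (X := fun m => (E m).1.1) F := tel _
  obtain ⟨G, hG⟩ := U.exists_desc (fun m => (E m).1.2) (fun m => hfg (E m))
  refine ⟨U.obj, G, BigCell.tel U.isTel fun m => (E m).2, fun k h => ⟨?_, ?_⟩⟩
  · suffices H : ∀ x : (𝟙_ 𝒯)⟦k⟧ ⟶ U.obj, x ≫ G = 0 → x = 0 by
      intro x y hxy
      change x ≫ G = y ≫ G at hxy
      exact sub_eq_zero.1 (H _ (by rw [Preadditive.sub_comp, hxy, sub_self]))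
    intro x hx
    obtain ⟨m, a, rfl⟩ := U.exists_factor (Vale.Agent.P251.X.cpt_sphere k) x
    rw [Category.assoc, hG] at hx
    have h1 : a ≫ F m = 0 := hk (E m) k h a hx
    rw [← U.w, ← Category.assoc, h1, zero_comp]
  · intro y
    obtain ⟨z, hz⟩ := hs₀ k h y
    exact ⟨z ≫ U.ι 0, by
      change (z ≫ U.ι 0) ≫ G = y
      rw [Category.assoc, hG]; exact hz⟩

/-- the homotopy of the cofibre of a cover -/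
theorem IsCov.cof_zero {k : ℤ} {Y X Q : 𝒯} {c : Y ⟶ X} {g : X ⟶ Q} {h : Q ⟶ Y⟦(1 : ℤ)⟧}
    (hc : IsCov k c) (h0 : Conn (0 : ℤ) (𝟙_ 𝒯)) (hT : Triangle.mk c g h ∈ distTriang 𝒯) (j : ℤ)
    (hj : k ≤ j) (x : (𝟙_ 𝒯)⟦j⟧ ⟶ Q) : x = 0 := by
  have hY : Conn k Y := BigCell.conn' h0 hc.cell
  -- the boundary is zero
  have h1 : x ≫ h = 0 := by
    rcases eq_or_lt_of_le hj with rfl | hj'
    · exact (hY.shift 1 (k + 1) rfl) k (by omega) _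
    · -- transport to degree `j - 1`
      let e : ((𝟙_ 𝒯)⟦j - 1⟧)⟦(1 : ℤ)⟧ ≅ (𝟙_ 𝒯)⟦j⟧ :=
        ((shiftFunctorAdd' 𝒯 (j - 1) 1 j (by ring)).app (𝟙_ 𝒯)).symm
      obtain ⟨y, hy⟩ := (shiftFunctor 𝒯 (1 : ℤ)).map_surjective (e.hom ≫ x ≫ h)
      have h2 : y ≫ c = 0 := by
        apply (shiftFunctor 𝒯 (1 : ℤ)).map_injective
        rw [Functor.map_comp, hy, Functor.map_zero, Category.assoc, Category.assoc]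
        have h3 : h ≫ c⟦(1 : ℤ)⟧' = 0 := comp_distTriang_mor_zero₃₁ _ hT
        rw [h3, comp_zero, comp_zero]
      have h3 : y = 0 := (hc.bij (j - 1) (by omega)).1 (by
        change y ≫ c = 0 ≫ c
        rw [h2, zero_comp])
      rw [h3, Functor.map_zero] at hy
      rw [← cancel_epi e.hom, ← hy, comp_zero]
  obtain ⟨z, hz⟩ : ∃ z : (𝟙_ 𝒯)⟦j⟧ ⟶ X, x = z ≫ g := Triangle.coyoneda_exact₃ _ hT x h1
  obtain ⟨y, hy⟩ := (hc.bij j hj).2 z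
  change y ≫ c = z at hy
  have h4 : c ≫ g = 0 := comp_distTriang_mor_zero₁₂ _ hT
  rw [hz, ← hy, Category.assoc, h4, comp_zero]

/-- shifting vanishing ranges -/
theorem zero_shift {k : ℤ} {Q : 𝒯} (hQ : ∀ j, k ≤ j → ∀ x : (𝟙_ 𝒯)⟦j⟧ ⟶ Q, x = 0) (m l : ℤ)
    (hl : k + m = l) (j : ℤ) (hj : l ≤ j) (x : (𝟙_ 𝒯)⟦j⟧ ⟶ Q⟦m⟧) : x = 0 := by
  let e : ((𝟙_ 𝒯)⟦j - m⟧)⟦m⟧ ≅ (𝟙_ 𝒯)⟦j⟧ :=
    ((shiftFunctorAdd' 𝒯 (j - m) m j (by ring)).app (𝟙_ 𝒯)).symm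
  obtain ⟨y, hy⟩ := (shiftFunctor 𝒯 m).map_surjective (e.hom ≫ x)
  rw [← cancel_epi e.hom, ← hy, hQ (j - m) (by omega) y, Functor.map_zero, comp_zero]

/-- maps from objects with cells in dimensions `≥ k` to objects without homotopy there -/
theorem hom_zero {k : ℤ} {Z Q : 𝒯} (hZ : BigCell 𝒯 k Z)
    (hQ : ∀ j, k ≤ j → ∀ x : (𝟙_ 𝒯)⟦j⟧ ⟶ Q, x = 0) (f : Z ⟶ Q) : f = 0 :=
  hom_bigCell (by omega : k - 1 < k) hZ (fun j hj => hQ j (by omega)) f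

theorem IsCov.ext {k : ℤ} {Y X Z : 𝒯} {c : Y ⟶ X} (hc : IsCov k c) (h0 : Conn (0 : ℤ) (𝟙_ 𝒯))
    (hZ : BigCell 𝒯 k Z) {f g : Z ⟶ Y} (h : f ≫ c = g ≫ c) : f = g := by
  obtain ⟨Q, g', h', hT⟩ := distinguished_cocone_triangle c
  have h1 : (f - g) ≫ c = 0 := by rw [Preadditive.sub_comp, h, sub_self]
  obtain ⟨t, ht⟩ := Triangle.coyoneda_exact₂ _ (inv_rot_of_distTriang _ hT) (f - g) h1
  have h2 : t = 0 := hom_zero hZ (fun j hj x => zero_shift (k := k)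
    (fun j hj => hc.cof_zero h0 hT j hj) (-1) (k - 1) (by ring) j (by omega) x) t
  have h3 : (0 : Z ⟶ (Triangle.mk c g' h').invRotate.obj₁) ≫
      (Triangle.mk c g' h').invRotate.mor₁ = 0 := zero_comp
  have h4 : f - g = 0 := by
    refine ht.trans ?_
    rw [h2]
    exact h3
  exact sub_eq_zero.1 h4

theorem IsCov.exists_lift {k : ℤ} {Y X Z : 𝒯} {c : Y ⟶ X} (hc : IsCov k c)
    (h0 : Conn (0 : ℤ) (𝟙_ 𝒯)) (hZ : BigCell 𝒯 k Z) (f : Z ⟶ X) : ∃ g : Z ⟶ Y, g ≫ c = f := by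
  obtain ⟨Q, g', h', hT⟩ := distinguished_cocone_triangle c
  have h1 : f ≫ g' = 0 := hom_zero hZ (fun j hj => hc.cof_zero h0 hT j hj) _
  obtain ⟨g, hg⟩ : ∃ g : Z ⟶ Y, f = g ≫ c := Triangle.coyoneda_exact₂ _ hT _ h1
  exact ⟨g, hg.symm⟩

/-- `π_j f` is bijective for `j ≥ k` -/
def BijGe (k : ℤ) {X Y : 𝒯} (f : X ⟶ Y) : Prop :=
  ∀ j, k ≤ j → Function.Bijective fun y : (𝟙_ 𝒯)⟦j⟧ ⟶ X => y ≫ f

theorem BijGe.mono {k l : ℤ} (h : k ≤ l) {X Y : 𝒯} {f : X ⟶ Y} (hf : BijGe k f) : BijGe l f :=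
  fun j hj => hf j (h.trans hj)

theorem BijGe.comp {k : ℤ} {X Y Z : 𝒯} {f : X ⟶ Y} {g : Y ⟶ Z} (hf : BijGe k f)
    (hg : BijGe k g) : BijGe k (f ≫ g) := by
  intro j hj
  have h : (fun y : (𝟙_ 𝒯)⟦j⟧ ⟶ X => y ≫ f ≫ g) = (fun y => y ≫ g) ∘ fun y => y ≫ f := by
    funext y
    exact (Category.assoc _ _ _).symm
  rw [h]
  exact (hg j hj).comp (hf j hj)

theorem BijGe.of_comp {k : ℤ} {X Y Z : 𝒯} {f : X ⟶ Y} {g : Y ⟶ Z} (hg : BijGe k g)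
    (hfg : BijGe k (f ≫ g)) : BijGe k f := by
  intro j hj
  have h : (fun y : (𝟙_ 𝒯)⟦j⟧ ⟶ X => y ≫ f ≫ g) = (fun y => y ≫ g) ∘ fun y => y ≫ f := by
    funext y
    exact (Category.assoc _ _ _).symm
  have h1 := hfg j hj
  rw [h] at h1
  exact ⟨h1.1.of_comp, fun y => by
    obtain ⟨x, hx⟩ := h1.2 (y ≫ g)
    exact ⟨x, (hg j hj).1 hx⟩⟩

theorem BijGe.of_isIso (k : ℤ) {X Y : 𝒯} (f : X ⟶ Y) [IsIso f] : BijGe k f := fun j _ =>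
  ⟨fun x y h => by
    change x ≫ f = y ≫ f at h
    exact (cancel_mono f).1 h, fun y => ⟨y ≫ inv f, by simp⟩⟩

theorem BijGe.shift {k : ℤ} {X Y : 𝒯} {f : X ⟶ Y} (hf : BijGe k f) (m l : ℤ) (h : k + m = l) :
    BijGe l (f⟦m⟧') := by
  intro j hj
  let e : ((𝟙_ 𝒯)⟦j - m⟧)⟦m⟧ ≅ (𝟙_ 𝒯)⟦j⟧ :=
    ((shiftFunctorAdd' 𝒯 (j - m) m j (by ring)).app (𝟙_ 𝒯)).symm
  constructor
  · intro x y hxy
    change x ≫ f⟦m⟧' = y ≫ f⟦m⟧' at hxy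
    obtain ⟨x', hx⟩ := (shiftFunctor 𝒯 m).map_surjective (e.hom ≫ x)
    obtain ⟨y', hy⟩ := (shiftFunctor 𝒯 m).map_surjective (e.hom ≫ y)
    have h1 : x' ≫ f = y' ≫ f := (shiftFunctor 𝒯 m).map_injective (by
      rw [Functor.map_comp, Functor.map_comp, hx, hy, Category.assoc, Category.assoc, hxy])
    rw [← cancel_epi e.hom, ← hx, ← hy, (hf (j - m) (by omega)).1 h1]
  · intro y
    obtain ⟨y', hy⟩ := (shiftFunctor 𝒯 m).map_surjective (e.hom ≫ y)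
    obtain ⟨x, hx⟩ := (hf (j - m) (by omega)).2 y'
    change x ≫ f = y' at hx
    refine ⟨e.inv ≫ x⟦m⟧', ?_⟩
    change (e.inv ≫ x⟦m⟧') ≫ f⟦m⟧' = y
    rw [Category.assoc, ← Functor.map_comp, hx, hy, Iso.inv_hom_id_assoc]

theorem IsCov.bijGe {k : ℤ} {Y X : 𝒯} {c : Y ⟶ X} (hc : IsCov k c) : BijGe k c := hc.bij

theorem IsCov.comp_bijGe {k : ℤ} {Z Y X : 𝒯} {d : Z ⟶ Y} (hd : IsCov k d) {c : Y ⟶ X}
    (hc : BijGe k c) : IsCov k (d ≫ c) := ⟨hd.cell, hd.bijGe.comp hc⟩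

/-- covers are unique -/
theorem IsCov.exists_iso {k : ℤ} {Y Y' X : 𝒯} {c : Y ⟶ X} {c' : Y' ⟶ X} (hc : IsCov k c)
    (hc' : IsCov k c') (h0 : Conn (0 : ℤ) (𝟙_ 𝒯)) : ∃ e : Y ≅ Y', e.hom ≫ c' = c := by
  obtain ⟨f, hf⟩ := hc'.exists_lift h0 hc.cell c
  obtain ⟨g, hg⟩ := hc.exists_lift h0 hc'.cell c'
  exact ⟨⟨f, g, hc.ext h0 hc.cell (by rw [Category.assoc, hg, hf, Category.id_comp]),
    hc'.ext h0 hc'.cell (by rw [Category.assoc, hf, hg, Category.id_comp])⟩, hf⟩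

/-- a map of bounded below objects with cells in dimensions `≥ k` which is bijective there -/
theorem BijGe.isIso {k : ℤ} {X Y : 𝒯} {f : X ⟶ Y} (hf : BijGe k f) (h0 : Conn (0 : ℤ) (𝟙_ 𝒯))
    (hX : BigCell 𝒯 k X) (hY : BigCell 𝒯 k Y) : IsIso f := by
  obtain ⟨e, he⟩ := IsCov.exists_iso (c := f) (c' := 𝟙 Y) ⟨hX, hf⟩
    ⟨hY, BijGe.of_isIso k (𝟙 Y)⟩ h0
  rw [Category.comp_id] at he
  rw [← he]
  infer_instance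

/-- the cofibre of a map of covers -/
theorem bijGe_cof {k : ℤ} {Y₁ Y₂ Y₃ X₁ X₂ X₃ : 𝒯} {f' : Y₁ ⟶ Y₂} {g' : Y₂ ⟶ Y₃}
    {w' : Y₃ ⟶ Y₁⟦(1 : ℤ)⟧} {f : X₁ ⟶ X₂} {g : X₂ ⟶ X₃} {w : X₃ ⟶ X₁⟦(1 : ℤ)⟧}
    (hT' : Triangle.mk f' g' w' ∈ distTriang 𝒯) (hT : Triangle.mk f g w ∈ distTriang 𝒯)
    {c₁ : Y₁ ⟶ X₁} {c₂ : Y₂ ⟶ X₂} {c₃ : Y₃ ⟶ X₃} (h₁ : BijGe k c₁) (h₂ : BijGe k c₂)
    (e₁ : f' ≫ c₂ = c₁ ≫ f) (e₂ : g' ≫ c₃ = c₂ ≫ g) (e₃ : w' ≫ c₁⟦(1 : ℤ)⟧' = c₃ ≫ w) :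
    BijGe (k + 1) c₃ := by
  have h₁' : BijGe (k + 1) (c₁⟦(1 : ℤ)⟧') := h₁.shift 1 (k + 1) rfl
  have h₂' : BijGe (k + 1) (c₂⟦(1 : ℤ)⟧') := h₂.shift 1 (k + 1) rfl
  intro j hj
  have z₁ : f' ≫ g' = 0 := comp_distTriang_mor_zero₁₂ _ hT'
  have z₂ : g ≫ w = 0 := comp_distTriang_mor_zero₂₃ _ hT
  have z₃ : w ≫ f⟦(1 : ℤ)⟧' = 0 := comp_distTriang_mor_zero₃₁ _ hT
  have z₄ : f ≫ g = 0 := comp_distTriang_mor_zero₁₂ _ hT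
  constructor
  · suffices H : ∀ x : (𝟙_ 𝒯)⟦j⟧ ⟶ Y₃, x ≫ c₃ = 0 → x = 0 by
      intro x y hxy
      change x ≫ c₃ = y ≫ c₃ at hxy
      exact sub_eq_zero.1 (H _ (by rw [Preadditive.sub_comp, hxy, sub_self]))
    intro x hx
    have a1 : x ≫ w' = 0 := (h₁' j hj).1 (by
      change (x ≫ w') ≫ c₁⟦(1 : ℤ)⟧' = 0 ≫ c₁⟦(1 : ℤ)⟧'
      rw [Category.assoc, e₃, ← Category.assoc, hx, zero_comp, zero_comp])
    obtain ⟨y, rfl⟩ : ∃ y : (𝟙_ 𝒯)⟦j⟧ ⟶ Y₂, x = y ≫ g' :=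
      Triangle.coyoneda_exact₃ _ hT' x a1
    have a2 : (y ≫ c₂) ≫ g = 0 := by
      rw [Category.assoc, ← e₂, ← Category.assoc, hx]
    obtain ⟨m, hm⟩ : ∃ m : (𝟙_ 𝒯)⟦j⟧ ⟶ X₁, y ≫ c₂ = m ≫ f := Triangle.coyoneda_exact₂ _ hT _ a2
    obtain ⟨y₁, hy₁⟩ := (h₁ j (by omega)).2 m
    change y₁ ≫ c₁ = m at hy₁
    have a3 : y = y₁ ≫ f' := (h₂ j (by omega)).1 (by
      change y ≫ c₂ = (y₁ ≫ f') ≫ c₂
      rw [hm, ← hy₁, Category.assoc, Category.assoc, e₁])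
    rw [a3, Category.assoc, z₁, comp_zero]
  · intro x
    obtain ⟨y, hy⟩ := (h₁' j hj).2 (x ≫ w)
    change y ≫ c₁⟦(1 : ℤ)⟧' = x ≫ w at hy
    have a1 : y ≫ f'⟦(1 : ℤ)⟧' = 0 := (h₂' j hj).1 (by
      change (y ≫ f'⟦(1 : ℤ)⟧') ≫ c₂⟦(1 : ℤ)⟧' = 0 ≫ c₂⟦(1 : ℤ)⟧'
      rw [Category.assoc, ← Functor.map_comp, e₁, Functor.map_comp, ← Category.assoc, hy,
        Category.assoc, z₃, comp_zero, zero_comp])
    obtain ⟨z, hz⟩ : ∃ z : (𝟙_ 𝒯)⟦j⟧ ⟶ Y₃, y = z ≫ w' :=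
      Triangle.coyoneda_exact₁ _ hT' y a1
    have a2 : (x - z ≫ c₃) ≫ w = 0 := by
      rw [Preadditive.sub_comp, Category.assoc, ← e₃, ← Category.assoc, ← hz, hy, sub_self]
    obtain ⟨m, hm⟩ : ∃ m : (𝟙_ 𝒯)⟦j⟧ ⟶ X₂, x - z ≫ c₃ = m ≫ g :=
      Triangle.coyoneda_exact₃ _ hT _ a2
    obtain ⟨y₂, hy₂⟩ := (h₂ j (by omega)).2 m
    change y₂ ≫ c₂ = m at hy₂
    refine ⟨z + y₂ ≫ g', ?_⟩
    change (z + y₂ ≫ g') ≫ c₃ = x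
    rw [Preadditive.add_comp, Category.assoc, e₂, ← Category.assoc, hy₂, ← hm]
    abel

end Vale.Agent.P221.Loc
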