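import Vale.Agent.P221.Loc.Good
import Vale.Agent.P221.H246.LocFp

/-!
# P221, version 2, leaf L4 (helper246): fp-spectra and good objects

* `good_of_fpType` : fp-spectra are good;
* `totallyFinite_of_good` : `W ⊗ V` is totally finite if `W` is good and bounded, `V` a generalised
  Moore spectrum.
-/

open CategoryTheory MonoidalCategory Limits Pretriangulated

set_option linter.unusedSectionVars false

namespace Vale.Agent.P221.Loc

open Vale.Agent.P251.St Vale.Agent.P251.St.SHCat Vale.Agent.P257.St Vale.Agent.P221.St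

variable {T : SHCat} {S : Susp T} {p : ℕ} {R : RingSp T} {C : T.C} {i : 𝟙_ T.C ⟶ C}
  {δ : C ⟶ (𝟙_ T.C)⟦(1 : ℤ)⟧}

/-- **L4 (a)** fp-spectra are good -/
theorem good_of_fpType (hp : p.Prime) (hC : Triangle.mk ((p : ℤ) • 𝟙 (𝟙_ T.C)) i δ ∈ distTriang T.C)
    {n : ℕ} {X : T.C} (hX : IsFpType S p n X) : Good p C X where
  pc := hX.1
  fin j := H246.finite_of_fpType hp hX hC j
  bb := by
    obtain ⟨N, hN⟩ := hX.2.1
    exact ⟨N, hN⟩

/-- **L4 (b)** -/
theorem totallyFinite_of_good {φ : GHom S p R}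
    (hC : Triangle.mk ((p : ℤ) • 𝟙 (𝟙_ T.C)) i δ ∈ distTriang T.C) {W : T.C} (hW : Good p C W)
    (ha : ∃ k : ℤ, ∀ j, k ≤ j → ∀ f : (𝟙_ T.C)⟦j⟧ ⟶ W, f = 0) {m : ℕ} {V : T.C}
    (hV : IsGenMoore φ m V) : TotallyFinite (ten W V) := by
  obtain ⟨k, hk⟩ := ha
  obtain ⟨N, hN⟩ := hW.bb
  exact H246.totallyFinite_of_bounded hC hW.fin ⟨N, hN⟩ ⟨k, fun j hj => hk j (le_of_lt hj)⟩ hV

end Vale.Agent.P221.Loc
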