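import Vale.Agent.P221.Loc.Good

/-!
# P221 (helper520): connective covers of `p`-complete objects

`C` is the cofibre of `p : 𝟙 ⟶ 𝟙` (triangle `hC`).

* `IsCov.pComplete` : covers of `p`-complete objects are `p`-complete;
* `IsCov.finite` : if all `π_j (X ⊗ C)` are finite, then so are all `π_j (Y ⊗ C)`, `Y` a cover of `X`.
-/

open CategoryTheory MonoidalCategory Limits Pretriangulated

set_option linter.unusedSectionVars false

universe u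

namespace Vale.Agent.P221.Loc

open Vale.Agent.P251.T Vale.Agent.P251.S Vale.Agent.P251.H Vale.Agent.P251.M
  Vale.Agent.P251.I Vale.Agent.P257.H762 Vale.Agent.P221.H136

variable {𝒯 : Type u} [Category.{0} 𝒯] [Preadditive 𝒯] [HasZeroObject 𝒯]
    [HasShift 𝒯 ℤ] [∀ n : ℤ, (shiftFunctor 𝒯 n).Additive] [Pretriangulated 𝒯] [IsTriangulated 𝒯]
    [MonoidalCategory 𝒯] [SymmetricCategory 𝒯] [TensorTriangulated 𝒯] [MonoidalClosed 𝒯]
    [HasCoproducts.{0} 𝒯] [HasProducts.{0} 𝒯] [StableCat 𝒯]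
  {p : ℕ} {C : 𝒯} {i : 𝟙_ 𝒯 ⟶ C} {δ : C ⟶ (𝟙_ 𝒯)⟦(1 : ℤ)⟧}

section

variable (hC : Triangle.mk ((p : ℤ) • 𝟙 (𝟙_ 𝒯)) i δ ∈ distTriang 𝒯)
include hC

/-- covers of `p`-complete objects are `p`-complete -/
theorem IsCov.pComplete (h0 : Conn (0 : ℤ) (𝟙_ 𝒯)) {k : ℤ} {Y X : 𝒯} {c : Y ⟶ X}
    (hc : IsCov k c) (hX : H395.PComplete p X) : H395.PComplete p Y := by
  obtain ⟨L, l, hL, hl⟩ := H395.exists_completion hC Y
  have h1 : Conn k L := H395.conn_of_isIso_mod hC l hl hL (BigCell.conn' h0 hc.cell)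
  have h2 : BigCell 𝒯 k L := bigCell_of_conn h0 h1
  obtain ⟨c', hc'⟩ := (H395.bij_of_isIso_mod hC l hl hX).surjective c
  replace hc' : l ≫ c' = c := hc'
  obtain ⟨g, hg⟩ := hc.exists_lift h0 h2 c'
  refine hL.of_retract l g (hc.ext h0 hc.cell ?_)
  rw [Category.assoc, hg, hc', Category.id_comp]

/-- the vanishing range of `Q ⊗ C` -/
theorem zero_tensor {k : ℤ} {Q : 𝒯} (hQ : ∀ j, k ≤ j → ∀ x : (𝟙_ 𝒯)⟦j⟧ ⟶ Q, x = 0) (j : ℤ)
    (hj : k + 1 ≤ j) (x : (𝟙_ 𝒯)⟦j⟧ ⟶ Q ⊗ C) : x = 0 := by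
  have hT : Triangle.mk ((p : ℤ) • 𝟙 Q) ((redC i).app Q) _ ∈ distTriang 𝒯 :=
    redTri_distinguished hC Q
  obtain ⟨y, hy⟩ : ∃ y : (𝟙_ 𝒯)⟦j⟧ ⟶ Q, x = y ≫ (redC i).app Q :=
    Triangle.coyoneda_exact₃ _ hT x (zero_shift hQ 1 (k + 1) rfl j hj _)
  rw [hy, hQ j (by omega) y, zero_comp]

/-- finiteness of the homotopy mod `p` passes to covers -/
theorem IsCov.finite (h0 : Conn (0 : ℤ) (𝟙_ 𝒯)) {k : ℤ} {Y X : 𝒯} {c : Y ⟶ X}
    (hc : IsCov k c) (hX : FinDeg (X ⊗ C)) : FinDeg (Y ⊗ C) := by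
  intro j
  obtain ⟨Q, g, w, hT⟩ := distinguished_cocone_triangle c
  have hY : Conn k Y := BigCell.conn' h0 hc.cell
  rcases lt_or_ge j k with h | h
  · have h1 : Conn k (Y ⊗ C) := Conn.ext₃ _ (redTri_distinguished hC Y) hY (hY.mono (by omega))
    have h2 : Subsingleton ((𝟙_ 𝒯)⟦j⟧ ⟶ Y ⊗ C) := ⟨fun a b => by rw [h1 j h a, h1 j h b]⟩
    infer_instance
  · have hQ := hc.cof_zero h0 hT
    obtain ⟨w', hT'⟩ : ∃ w', Triangle.mk (c ▷ C) (g ▷ C) w' ∈ distTriang 𝒯 :=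
      ⟨_, (tensorRight C).map_distinguished _ hT⟩
    have h1 : Function.Injective fun y : (𝟙_ 𝒯)⟦j⟧ ⟶ Y ⊗ C => y ≫ (c ▷ C) := by
      intro a b hab
      change a ≫ (c ▷ C) = b ≫ (c ▷ C) at hab
      have h2 : (a - b) ≫ (c ▷ C) = 0 := by rw [Preadditive.sub_comp, hab, sub_self]
      obtain ⟨t, ht⟩ := Triangle.coyoneda_exact₂ _ (inv_rot_of_distTriang _ hT') (a - b) h2
      have h3 : t = 0 := zero_shift (k := k + 1) (fun j hj => zero_tensor hC hQ j hj) (-1) k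
        (by ring) j h t
      have h4 : (0 : (𝟙_ 𝒯)⟦j⟧ ⟶ (Triangle.mk (c ▷ C) (g ▷ C) w').invRotate.obj₁) ≫
        (Triangle.mk (c ▷ C) (g ▷ C) w').invRotate.mor₁ = 0 := zero_comp
      have h5 : a - b = 0 := by
        refine ht.trans ?_
        rw [h3]
        exact h4
      exact sub_eq_zero.1 h5
    have h6 := hX j
    exact Finite.of_injective _ h1

/-- covers of good objects are good -/
theorem IsCov.good (h0 : Conn (0 : ℤ) (𝟙_ 𝒯)) {k : ℤ} {Y X : 𝒯} {c : Y ⟶ X}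
    (hc : IsCov k c) (hX : Good p C X) : Good p C Y where
  pc := hc.pComplete hC h0 hX.pc
  fin := hc.finite hC h0 hX.fin
  bb := ⟨k, BigCell.conn' h0 hc.cell⟩

end

end Vale.Agent.P221.Loc
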