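import Vale.Agent.P221.Loc.Main
import Vale.Agent.P221.Loc.Conv
import Vale.Agent.P221.Loc.Pc
import Vale.Agent.P221.Loc.Fp
import Vale.Agent.P221.Loc.Mod
import Vale.Agent.P221.H509.HW

/-!
# P221 (helper509): the theorem on fp-spectra, local-to-global form, without hypotheses
-/

open CategoryTheory MonoidalCategory MonObj Limits Pretriangulated

set_option linter.unusedSectionVars false

noncomputable section

namespace Vale.Agent.P221.Loc

open Vale.Agent.P251 Vale.Agent.P251.S Vale.Agent.P251.T Vale.Agent.P251.M Vale.Agent.P251.F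
  Vale.Agent.P251.I EvenSpheres Vale.Agent.P257.H702 Vale.Agent.P257.H80 Vale.Agent.P251.Q
  Vale.Agent.P251.St Vale.Agent.P251.St.SHCat Vale.Agent.P257.St
  Vale.Agent.P221.H746 Vale.Agent.P093.N0

variable {T : SHCat} {S : Susp T} {p n : ℕ}

/-- **the local-to-global theorem** for forms -/
theorem thick_of_ev_form (hp : p.Prime) {B X M : T.C} {f : X ⟶ M} (hB : St.IsForm S p n B)
    (hX : St.IsFpType S p n X)
    (hf : ∃ K : ℤ, ∀ j ≥ K, Function.Bijective fun x : Hom (sphere T j) X => comp x f)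
    (hM : St.ThickOf (fun P => St.IsOrModule S P ∧ ∃ (Y : T.C) (c : Hom Y P),
      St.IsFpType S p n Y ∧
        ∃ K : ℤ, ∀ j ≥ K, Function.Bijective fun x : Hom (sphere T j) Y => comp x c) M) :
    St.Thick B X := by
  have : Fact p.Prime := ⟨hp⟩
  obtain ⟨D, hD, hA, ⟨U⟩⟩ := H924.exists_mu S.toSpaceFunctor (P251.M.lineIso S.toSpaceFunctor)
  obtain ⟨C, i, δ, hC⟩ := H746.exists_moore (𝒯 := T.C) (p : ℤ)
  exact thick_of_ev (C := C) hp hD U (fun X hX => H509.thick_of_isBPFinite hB hX)
    (fun k _ _ c hc h => hc.good hC D.conn_unit h)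
    (fun k _ _ c hc M => hc.modStr M)
    (fun k E h1 h2 => modStr_of_single D h1 h2)
    (fun X hX => good_of_fpType hp hC hX)
    (fun φ m W V h1 h2 h3 => totallyFinite_of_good hC h1 h2 h3) hX hf hM

/-- **the local-to-global theorem** for standard forms -/
theorem result (hp : p.Prime) {B X M : T.C} {f : X ⟶ M} (hB : StL.IsStandardForm S p n B)
    (hX : StL.IsFpType S p n X) (hf : StL.EvIso f)
    (hM : StL.ThickOf (StL.IsEvFpModule S p n) M) : StL.Thick B X := by
  have : Fact p.Prime := ⟨hp⟩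
  obtain ⟨D, hD, hA, ⟨U⟩⟩ := H924.exists_mu S.toSpaceFunctor (P251.M.lineIso S.toSpaceFunctor)
  have hB' : St.IsForm S p n B :=
    H924.isForm_of_isStandardForm hD hA U (isStandardForm_iff.1 hB)
  exact thickL_of_thick (thick_of_ev_form hp hB' (isFpType_of hX) hf
    (thickOf_mono (fun P h => by
      obtain ⟨h1, Y, c, h2, h3⟩ := h
      exact ⟨h1, Y, c, isFpType_of h2, h3⟩) hM))

end Vale.Agent.P221.Loc
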