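import Vale.Agent.P221.Loc.Bdd
import Vale.Agent.P221.Loc.Cls
import Vale.Agent.P221.St.ThickOf

/-!
# P221 (helper509): the local-to-global form of the theorem on fp-spectra
-/

open CategoryTheory MonoidalCategory MonObj Limits Pretriangulated

set_option linter.unusedSectionVars false

noncomputable section

namespace Vale.Agent.P221.Loc

open Vale.Agent.P251 Vale.Agent.P251.S Vale.Agent.P251.T Vale.Agent.P251.M Vale.Agent.P251.F
  Vale.Agent.P251.I EvenSpheres Vale.Agent.P257.H702 Vale.Agent.P257.H80 Vale.Agent.P251.Q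
  Vale.Agent.P251.St Vale.Agent.P251.St.SHCat Vale.Agent.P257.St Vale.Agent.P221.St
  Vale.Agent.P221.H746 Vale.Agent.P093.N0

variable {T : SHCat} {S : Susp T} {p n : ℕ} {C B : T.C} {D : MUData T.C}

/-- homotopy `MU`-modules of fp-type at most `n` -/
theorem thick_of_modStr (hp : p.Prime) (hD : MUUniv (P251.M.lineIso S.toSpaceFunctor) D)
    (U : MUFam (P251.M.lineIso S.toSpaceFunctor) D)
    (hT : ∀ X : T.C, IsBPFinite S p n X → Thick B X) {Y : T.C} (hY : IsFpType S p n Y)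
    (M : ModStr D.R Y) : Thick B Y := by
  have : Fact p.Prime := ⟨hp⟩
  obtain ⟨h1, h2, P, o, φ, V, hP, hV, hf⟩ := hY
  obtain ⟨b, hb, ho⟩ := U.exists_mapS o
  have hBP := isBPMon_of_isBrownPeterson ptypOut hD U ptypIn hP ho
  obtain ⟨N⟩ := H606.exists_modStr_of_mu' hD hBP h1 M
  exact hT Y (H395.Fp.isBPFinite_of_isFpModule hp
    ⟨h1, h2, P, o, φ, N.act, V, hP, H924.isAct_of_modStr N, hV, hf⟩)

section

variable (hp : p.Prime) (hD : MUUniv (P251.M.lineIso S.toSpaceFunctor) D)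
  (U : MUFam (P251.M.lineIso S.toSpaceFunctor) D)
  (hT : ∀ X : T.C, IsBPFinite S p n X → Thick B X)
  (hcov : ∀ (k : ℤ) {Y Z : T.C} (c : Y ⟶ Z), IsCov k c → Good p C Z → Good p C Y)
  (hmod : ∀ (k : ℤ) {Y Z : T.C} (c : Y ⟶ Z), IsCov k c → ModStr D.R Z → Nonempty (ModStr D.R Y))
  (hsing : ∀ (k : ℤ) (E : T.C), BigCell T.C k E →
    (∀ j, k < j → ∀ x : (𝟙_ T.C)⟦j⟧ ⟶ E, x = 0) → Nonempty (ModStr D.R E))
  (hgood : ∀ X : T.C, IsFpType S p n X → Good p C X)
  (htf : ∀ {P : RingSp T} (φ : P257.St.GHom S p P) (m : ℕ) (W V : T.C), Good p C W →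
    (∃ k : ℤ, ∀ j, k ≤ j → ∀ x : (𝟙_ T.C)⟦j⟧ ⟶ W, x = 0) → IsGenMoore φ m V →
      TotallyFinite (ten W V))

include hp hD U hT hsing htf in
/-- objects with one homotopy group -/
theorem thick_single {X : T.C} (hX : IsFpType S p n X) (k : ℤ) (E : T.C) (hE : Good p C E)
    (hc : BigCell T.C k E) (hz : ∀ j, k < j → ∀ x : (𝟙_ T.C)⟦j⟧ ⟶ E, x = 0) : Thick B E := by
  obtain ⟨M⟩ := hsing k E hc hz
  obtain ⟨-, -, P, o, φ, V, hP, hV, -⟩ := hX
  exact thick_of_modStr hp hD U hT ⟨hE.pc, hE.bb, P, o, φ, V, hP, hV,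
    htf φ (n + 1) E V hE ⟨k + 1, fun j hj => hz j (by omega)⟩ hV⟩ M

include hp hD U hT hcov hsing htf in
theorem covThick {X : T.C} (hX : IsFpType S p n X) :
    CovThick fun Z : T.C => Good p C Z ∧ Thick B Z where
  zero h := ⟨Good.of_isZero h, thick_zero h⟩
  shift k h := ⟨h.1.shift k, Thick.susp k h.2⟩
  cof hT h₁ h₂ := ⟨Good.ext₃ hT h₁.1 h₂.1, thick_ext₃ hT h₁.2 h₂.2⟩
  retract i r h hY := ⟨hY.1.of_retract i r h, Thick.retract i r h hY.2⟩
  cov {k _ _ c} hc h := ⟨hcov k c hc h.1, thick_cov D.conn_unit hcov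
    (thick_single hp hD U hT hsing htf hX) hc h.1 h.2⟩

include hp hD U hT hcov hmod hgood htf in
/-- local oriented modules -/
theorem evG_of_module {P Y : T.C} (hP : IsOrModule S P) {c : Y ⟶ P} {K : ℤ} (hc : BijGe K c)
    (hY : IsFpType S p n Y) : EvG (fun Z : T.C => Good p C Z ∧ Thick B Z) P := by
  obtain ⟨Z, d, hd⟩ := exists_cov K Y
  have hdc := hd.comp_bijGe hc
  obtain ⟨R, o', a, ha⟩ := hP
  obtain ⟨u, hu, -⟩ := U.exists_mapS o'
  obtain ⟨M⟩ := hmod K (d ≫ c) hdc (H606.res u (H924.modOf ha))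
  have hGY := hgood Y hY
  have hGZ : Good p C Z := hcov K d hd hGY
  obtain ⟨E, g, h, hTr⟩ := distinguished_cocone_triangle d
  have hGE : Good p C E := Good.ext₃ hTr hGZ hGY
  obtain ⟨-, -, P', o, φ, V, hBP, hV, hf⟩ := hY
  have h1 : TotallyFinite (ten E V) := htf φ (n + 1) E V hGE
    ⟨K, fun j hj x => hd.cof_zero D.conn_unit hTr j hj x⟩ hV
  have h2 : TotallyFinite (ten Z V) := tf_ext₁ ((tensorRight V).map_distinguished _ hTr) hf h1
  exact EvG.of_cov hdc ⟨hGZ, thick_of_modStr hp hD U hT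
    ⟨hGZ.pc, hGZ.bb, P', o, φ, V, hBP, hV, h2⟩ M⟩

include hp hD U hT hcov hmod hsing hgood htf in
theorem evG_of_thickOf {X M : T.C} (hX : IsFpType S p n X)
    (hM : ThickOf (fun P => IsOrModule S P ∧ ∃ (Y : T.C) (c : Hom Y P), IsFpType S p n Y ∧
      ∃ K : ℤ, ∀ j ≥ K, Function.Bijective fun x : Hom (sphere T j) Y => comp x c) M) :
    EvG (fun Z : T.C => Good p C Z ∧ Thick B Z) M := by
  have h0 : Conn (0 : ℤ) (𝟙_ T.C) := D.conn_unit
  have hC := covThick (C := C) (B := B) hp hD U hT hcov hsing htf hX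
  induction hM with
  | base h =>
    obtain ⟨hP, Y, c, hY, K, hK⟩ := h
    exact evG_of_module hp hD U hT hcov hmod hgood htf hP (c := c) (K := K) hK hY
  | zero h => exact EvG.of (hC.zero ((IsZero.iff_id_eq_zero _).2 h))
  | susp k _ ih => exact ih.shift hC k
  | cof hd _ _ ih₁ ih₂ => exact EvG.cof hC h0 hd ih₁ ih₂
  | retract i r hir _ ih => exact EvG.retract hC h0 i r hir ih

include hp hD U hT hcov hmod hsing hgood htf in
/-- **the local-to-global theorem**, from its parts -/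
theorem thick_of_ev {X M : T.C} {f : X ⟶ M} (hX : IsFpType S p n X)
    (hf : ∃ K : ℤ, ∀ j ≥ K, Function.Bijective fun x : Hom (sphere T j) X => comp x f)
    (hM : ThickOf (fun P => IsOrModule S P ∧ ∃ (Y : T.C) (c : Hom Y P), IsFpType S p n Y ∧
      ∃ K : ℤ, ∀ j ≥ K, Function.Bijective fun x : Hom (sphere T j) Y => comp x c) M) :
    Thick B X := by
  have h0 : Conn (0 : ℤ) (𝟙_ T.C) := D.conn_unit
  have hC := covThick (C := C) (B := B) hp hD U hT hcov hsing htf hX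
  have h1 : EvG (fun Z : T.C => Good p C Z ∧ Thick B Z) M :=
    evG_of_thickOf hp hD U hT hcov hmod hsing hgood htf hX hM
  obtain ⟨k₀, hk₀⟩ := h1.exists_cov hC h0
  obtain ⟨K, hK⟩ := hf
  have hK' : BijGe K f := hK
  obtain ⟨X', d, hd⟩ := exists_cov (max K k₀) X
  have h2 := hk₀ _ (le_max_right K k₀) (hd.comp_bijGe (hK'.mono (le_max_left K k₀)))
  exact thick_of_cov h0 hcov (thick_single hp hD U hT hsing htf hX) hd (hgood X hX) h2.2

end

end Vale.Agent.P221.Loc
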